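import Vale.Agent.P040.Collinear

open Vale.Agent.P040 in
/-- Zarankiewicz's lower bound for straight-line drawings of `K_{m,n}` in which one colour class
lies on a line. -/
theorem Vale.Agent.Results.P040.Collinear.result {m n : ℕ}
    (A : Fin m → ℝ × ℝ) (B : Fin n → ℝ × ℝ) (hD : IsStraightDrawing A B)
    (hcol : Collinear ℝ (Set.range A)) :
    dZ m * dZ n ≤ (crossingPoints A B).ncard :=
  collinear_class A B hD hcol
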