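import Vale.Agent.P040.Main

open Vale.Agent.P040 in
/-- Zarankiewicz's lower bound for straight-line drawings of `K_{m,n}` in which the class `B`
occupies at most two cells of the arrangement of the lines spanned by the class `A`. -/
theorem Vale.Agent.Results.P040.TwoCells.result {m n : ℕ}
    (A : Fin m → ℝ × ℝ) (B : Fin n → ℝ × ℝ) (hD : IsStraightDrawing A B) (s : Fin n → Bool)
    (hs : ∀ i i', i ≠ i' → ∀ j j', s j = s j' →
      0 < orient (A i) (A i') (B j) * orient (A i) (A i') (B j')) :
    dZ m * dZ n ≤ (crossingPoints A B).ncard :=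
  two_cells A B hD s hs
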